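import Vale.Agent.P261.H468.K.Def
import Vale.Agent.P251.S.CobWt

/-!
# P261, leaf K6, part 1: the limit of the cobar rings `Cob (v_h⁻¹ Laz/(q, I_h^j)) s`

Copy of `P251/S/CobLim.lean` and `P251/S/CobWt.lean` with `(p) + I_h^j` replaced by `(q) + I_h^j`,
`q : ℕ` any integer.
-/

open Vale.Agent.P251 Vale.Agent.P251.F Vale.Agent.P251.I Vale.Agent.P251.S

namespace Vale.Agent.P261

theorem ofLaz_QM (p q h j : ℕ) [Fact p.Prime] :
    LawRing.ofLaz (QM p q h j) = Ideal.Quotient.mk (IJm p q h j) :=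
  Laz.lift_map_univ _

theorem ofLaz_NM (p q h j : ℕ) [Fact p.Prime] : LawRing.ofLaz (NM p q h j) =
    (algebraMap (QM p q h j) (NM p q h j)).comp (Ideal.Quotient.mk (IJm p q h j)) := by
  have h1 : (LawRing.law (N := NM p q h j)) = Laz.univ.map ((algebraMap (QM p q h j)
      (NM p q h j)).comp (Ideal.Quotient.mk (IJm p q h j))) := by
    rw [← Law.map_map]
    rfl
  rw [LawRing.ofLaz, h1, Laz.lift_map_univ]

section NM

variable (p q h : ℕ) [Fact p.Prime] (j s : ℕ)

/-- The map `Cob Laz s → Cob (v_h⁻¹ Laz/(p, I_h^j)) s`. -/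
noncomputable def toNM : Cob Laz s →+* Cob (NM p q h j) s :=
  Cob.mapRing (LawRing.ofLaz (NM p q h j)) s

/-- `(q) + I_h^j` at the vertex `0`. -/
noncomputable def ICm : Ideal (Cob Laz s) := (IJm p q h j).map MvPolynomial.C

omit [Fact p.Prime] in
theorem ICm_eq : ICm p q h j s = Ideal.span {(q : Cob Laz s)} ⊔ IC p h s ^ j := by
  rw [ICm, IJm, Ideal.map_sup, Ideal.map_span, Ideal.map_pow, Set.image_singleton, map_natCast,
    IC]

theorem coeff_toNM (c : Cob Laz s) (m : Fin s × ℕ →₀ ℕ) :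
    MvPolynomial.coeff m (toNM p q h j s c) =
      algebraMap (QM p q h j) (NM p q h j) (Ideal.Quotient.mk (IJm p q h j) (MvPolynomial.coeff m c)) := by
  rw [toNM, Cob.mapRing, MvPolynomial.coeff_map, ofLaz_NM]
  rfl

theorem toNM_vC : toNM p q h j s (vC p h s) = MvPolynomial.C
    (algebraMap (QM p q h j) (NM p q h j) (Ideal.Quotient.mk (IJm p q h j) (Laz.v p h))) := by
  rw [toNM, Cob.mapRing, vC, MvPolynomial.map_C, ofLaz_NM]
  rfl

theorem isUnit_toNM_vC : IsUnit (toNM p q h j s (vC p h s)) := by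
  rw [toNM_vC]
  exact (IsLocalization.Away.algebraMap_isUnit _).map MvPolynomial.C

/-- The kernel of `toNM`. -/
theorem toNM_eq_zero_iff (c : Cob Laz s) :
    toNM p q h j s c = 0 ↔ ∃ k : ℕ, vC p h s ^ k * c ∈ ICm p q h j s := by
  constructor
  · intro hc
    have h1 : ∀ m, ∃ k : ℕ, Laz.v p h ^ k * MvPolynomial.coeff m c ∈ IJm p q h j := by
      intro m
      have h2 := coeff_toNM p q h j s c m
      rw [hc, MvPolynomial.coeff_zero] at h2
      obtain ⟨⟨x, k, hk⟩, hx⟩ := (IsLocalization.map_eq_zero_iff (Submonoid.powers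
        (Ideal.Quotient.mk (IJm p q h j) (Laz.v p h))) (NM p q h j) _).1 h2.symm
      refine ⟨k, ?_⟩
      rw [← Ideal.Quotient.eq_zero_iff_mem, map_mul, map_pow]
      simp only at hk
      rw [hk]
      exact hx
    choose K hK using h1
    refine ⟨c.support.sup K, ?_⟩
    rw [ICm, MvPolynomial.mem_map_C_iff]
    intro m
    rw [vC, ← map_pow, MvPolynomial.coeff_C_mul]
    by_cases hm : m ∈ c.support
    · obtain ⟨l, hl⟩ := Nat.exists_eq_add_of_le (Finset.le_sup (f := K) hm)
      rw [hl, add_comm, pow_add, mul_assoc]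
      exact Ideal.mul_mem_left _ _ (hK m)
    · rw [MvPolynomial.notMem_support_iff.1 hm, mul_zero]
      exact zero_mem _
  · rintro ⟨k, hk⟩
    have h1 : toNM p q h j s (vC p h s ^ k * c) = 0 := by
      ext m
      rw [coeff_toNM, Ideal.Quotient.eq_zero_iff_mem.2
        ((MvPolynomial.mem_map_C_iff (I := IJm p q h j)).1 hk m), map_zero, MvPolynomial.coeff_zero]
    rw [map_mul, map_pow] at h1
    exact (((isUnit_toNM_vC p q h j s).pow k).mul_right_eq_zero).1 h1

/-- Every element of `Cob (NM p q h j) s` is a fraction. -/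
theorem exists_toNM (y : Cob (NM p q h j) s) :
    ∃ (k : ℕ) (c : Cob Laz s), toNM p q h j s (vC p h s) ^ k * y = toNM p q h j s c := by
  induction y using MvPolynomial.induction_on with
  | C a =>
    obtain ⟨⟨x, m, k, hk⟩, hx⟩ := IsLocalization.surj (Submonoid.powers
      (Ideal.Quotient.mk (IJm p q h j) (Laz.v p h))) a
    obtain ⟨x, rfl⟩ := Ideal.Quotient.mk_surjective x
    refine ⟨k, MvPolynomial.C x, ?_⟩
    simp only at hk hx
    rw [toNM_vC, ← map_pow, ← map_pow, hk, ← map_mul, toNM, Cob.mapRing, MvPolynomial.map_C,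
      ofLaz_NM, mul_comm, hx]
    rfl
  | add x y hx hy =>
    obtain ⟨k, c, hc⟩ := hx
    obtain ⟨k', c', hc'⟩ := hy
    refine ⟨k + k', vC p h s ^ k' * c + vC p h s ^ k * c', ?_⟩
    rw [map_add, map_mul, map_mul, map_pow, map_pow, ← hc, ← hc']
    ring
  | mul_X x n hx =>
    obtain ⟨k, c, hc⟩ := hx
    refine ⟨k, c * MvPolynomial.X n, ?_⟩
    rw [← mul_assoc, hc, map_mul]
    congr 1
    rw [toNM, Cob.mapRing, MvPolynomial.map_X]

theorem red_toNM {a b : ℕ} (hab : a ≤ b) (c : Cob Laz s) :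
    Cob.mapRing (NM.red p q h hab) s (toNM p q h b s c) = toNM p q h a s c := by
  rw [toNM, toNM, Cob.mapRing_mapRing]
  congr 2
  apply Laz.equiv.injective
  change Laz.univ.map _ = Laz.univ.map _
  rw [← Law.map_map, LawRing.ofLaz, LawRing.ofLaz, Laz.univ_map_lift, Laz.univ_map_lift,
    (isLawHom_NM_red p q h hab).law]

end NM

section Compl

variable (p q h s : ℕ)

/-- `E` is the completion of `v_h⁻¹ (Cob Laz s / p)`, with unit `u`. -/
structure CobComplM {E : Type*} [AddCommGroup E] [Module (Cob Laz s) E] (u : E) : Prop where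
  haus : ∀ e : E, (∀ k, e ∈ (IC p h s ^ k • ⊤ : Submodule (Cob Laz s) E)) → e = 0
  complete : CauchyComplete (IC p h s) E
  inj : ∀ e : E, vC p h s • e = 0 → e = 0
  surj : ∀ e : E, ∃ e' : E, vC p h s • e' = e
  dense : ∀ (j : ℕ) (e : E), ∃ (k : ℕ) (c : Cob Laz s),
    vC p h s ^ k • e - c • u ∈ (IC p h s ^ j • ⊤ : Submodule (Cob Laz s) E)
  closed : ∀ (j : ℕ) (c : Cob Laz s), c • u ∈ (IC p h s ^ j • ⊤ : Submodule (Cob Laz s) E) →
    ∃ k : ℕ, vC p h s ^ k * c ∈ ICm p q h j s
  q_smul : ∀ e : E, (q : Cob Laz s) • e = 0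

variable {E : Type*} [AddCommGroup E] [Module (Cob Laz s) E] {u : E}

/-- From the condition `C` for a cyclic module `F = Cob/p`. -/
theorem CobComplM.of_compCond {F : Type*} [AddCommGroup F] [Module (Cob Laz s) F]
    {φ : F →ₗ[Cob Laz s] E} (H : CompCond (IC p h s) (vC p h s) φ) (uF : F)
    (hgen : ∀ f : F, ∃ c : Cob Laz s, c • uF = f)
    (hker : ∀ c : Cob Laz s, c • uF = 0 → c ∈ Ideal.span {(q : Cob Laz s)})
    (hp : ∀ e : E, (q : Cob Laz s) • e = 0) : CobComplM p q h s (φ uF) where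
  haus := H.haus
  complete := H.complete
  inj := H.inj
  surj := H.surj
  dense j e := by
    obtain ⟨k, f, hf⟩ := H.dense j e
    obtain ⟨c, rfl⟩ := hgen f
    exact ⟨k, c, by rwa [map_smul] at hf⟩
  closed j c hc := by
    rw [← map_smul] at hc
    obtain ⟨k, hk⟩ := H.closed j _ hc
    refine ⟨k, ?_⟩
    have h1 : ∀ x ∈ (IC p h s ^ j • ⊤ : Submodule (Cob Laz s) F),
        ∃ a ∈ IC p h s ^ j, a • uF = x := by
      intro x hx
      refine Submodule.smul_induction_on hx ?_ ?_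
      · rintro r hr f -
        obtain ⟨c, rfl⟩ := hgen f
        exact ⟨r * c, Ideal.mul_mem_right _ _ hr, mul_smul _ _ _⟩
      · rintro x y ⟨a, ha, rfl⟩ ⟨b, hb, rfl⟩
        exact ⟨a + b, add_mem ha hb, add_smul _ _ _⟩
    obtain ⟨a, ha, hae⟩ := h1 _ hk
    rw [smul_smul, ← sub_eq_zero, ← sub_smul] at hae
    have h2 := hker _ hae
    rw [ICm_eq]
    have h3 : vC p h s ^ k * c = a - (a - vC p h s ^ k * c) := by ring
    rw [h3]
    exact sub_mem (Ideal.mem_sup_right ha) (Ideal.mem_sup_left h2)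
  q_smul := hp

namespace CobComplM

variable {p q h s}

variable (H : CobComplM p q h s u)
include H

theorem pow_inj (k : ℕ) {e : E} (he : vC p h s ^ k • e = 0) : e = 0 := by
  induction k with
  | zero => simpa using he
  | succ k ih =>
    rw [pow_succ', mul_smul] at he
    exact ih (H.inj _ he)

theorem pow_surj (k : ℕ) (e : E) : ∃ e' : E, vC p h s ^ k • e' = e := by
  induction k with
  | zero => exact ⟨e, by simp⟩
  | succ k ih =>
    obtain ⟨e', he'⟩ := ih
    obtain ⟨e'', he''⟩ := H.surj e'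
    exact ⟨e'', by rw [pow_succ, mul_smul, he'', he']⟩

theorem fil_cancel (j k : ℕ) {e : E} (he : vC p h s ^ k • e ∈ Fil p h s j E) :
    e ∈ Fil p h s j E := by
  have h1 : ∀ x ∈ Fil p h s j E, ∃ y ∈ Fil p h s j E, vC p h s ^ k • y = x := by
    intro x hx
    refine Submodule.smul_induction_on hx ?_ ?_
    · rintro r hr e -
      obtain ⟨e', rfl⟩ := H.pow_surj k e
      exact ⟨r • e', Submodule.smul_mem_smul hr trivial, smul_comm _ _ _⟩
    · rintro x y ⟨a, ha, rfl⟩ ⟨b, hb, rfl⟩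
      exact ⟨a + b, add_mem ha hb, smul_add _ _ _⟩
  obtain ⟨y, hy, hye⟩ := h1 _ he
  have : y = e := by
    rw [← sub_eq_zero]
    apply H.pow_inj k
    rw [smul_sub, hye, sub_self]
  rwa [← this]

theorem smul_u_mem {j : ℕ} {c : Cob Laz s} (hc : c ∈ ICm p q h j s) : c • u ∈ Fil p h s j E := by
  rw [ICm_eq] at hc
  obtain ⟨a, ha, b, hb, rfl⟩ := Submodule.mem_sup.1 hc
  rw [add_smul]
  refine add_mem ?_ (Submodule.smul_mem_smul hb trivial)
  obtain ⟨x, rfl⟩ := Ideal.mem_span_singleton'.1 ha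
  rw [mul_smul, H.q_smul, smul_zero]
  exact zero_mem _

variable [Fact p.Prime]

theorem toNM_eq_zero_iff' (j : ℕ) (c : Cob Laz s) :
    toNM p q h j s c = 0 ↔ c • u ∈ Fil p h s j E := by
  rw [toNM_eq_zero_iff]
  constructor
  · rintro ⟨k, hk⟩
    have := H.smul_u_mem hk
    rw [mul_smul] at this
    exact H.fil_cancel j k this
  · exact H.closed j c

theorem exists_lam (j : ℕ) (e : E) : ∃ y : Cob (NM p q h j) s, ∀ (k : ℕ) (c : Cob Laz s),
    vC p h s ^ k • e - c • u ∈ Fil p h s j E →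
      toNM p q h j s (vC p h s) ^ k * y = toNM p q h j s c := by
  obtain ⟨k₀, c₀, h₀⟩ := H.dense j e
  have hu := (isUnit_toNM_vC p q h j s).pow k₀
  obtain ⟨w, hw⟩ := hu
  refine ⟨(w⁻¹ : (Cob (NM p q h j) s)ˣ) * toNM p q h j s c₀, fun k c hc => ?_⟩
  have h1 : (vC p h s ^ k * c₀ - vC p h s ^ k₀ * c) • u ∈ Fil p h s j E := by
    have e1 : (vC p h s ^ k * c₀ - vC p h s ^ k₀ * c) • u =
        vC p h s ^ k₀ • (vC p h s ^ k • e - c • u) - vC p h s ^ k • (vC p h s ^ k₀ • e - c₀ • u) := by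
      simp only [sub_smul, mul_smul, smul_sub]
      rw [smul_comm (vC p h s ^ k₀) (vC p h s ^ k) e]
      abel
    rw [e1]
    exact sub_mem (Submodule.smul_mem _ _ hc) (Submodule.smul_mem _ _ h₀)
  have h2 := (H.toNM_eq_zero_iff' j _).2 h1
  rw [map_sub, map_mul, map_mul, map_pow, map_pow, ← hw, sub_eq_zero] at h2
  calc toNM p q h j s (vC p h s) ^ k * ((w⁻¹ : (Cob (NM p q h j) s)ˣ) * toNM p q h j s c₀)
      = (w⁻¹ : (Cob (NM p q h j) s)ˣ) * (toNM p q h j s (vC p h s) ^ k * toNM p q h j s c₀) := by ring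
    _ = toNM p q h j s c := by rw [h2, Units.inv_mul_cancel_left]

/-- The map `E → Cob (NM p q h j) s`. -/
noncomputable def lamFun (j : ℕ) (e : E) : Cob (NM p q h j) s := (H.exists_lam j e).choose

theorem lamFun_spec (j : ℕ) (e : E) {k : ℕ} {c : Cob Laz s}
    (hc : vC p h s ^ k • e - c • u ∈ Fil p h s j E) :
    toNM p q h j s (vC p h s) ^ k * H.lamFun j e = toNM p q h j s c :=
  (H.exists_lam j e).choose_spec k c hc

theorem lamFun_unique (j : ℕ) (e : E) {k : ℕ} {c : Cob Laz s} {y : Cob (NM p q h j) s}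
    (hc : vC p h s ^ k • e - c • u ∈ Fil p h s j E)
    (hy : toNM p q h j s (vC p h s) ^ k * y = toNM p q h j s c) : H.lamFun j e = y :=
  ((isUnit_toNM_vC p q h j s).pow k).mul_right_injective (by
    change toNM p q h j s (vC p h s) ^ k * _ = toNM p q h j s (vC p h s) ^ k * _
    rw [H.lamFun_spec j e hc, hy])

/-- The map `E → Cob (NM p q h j) s`, as an additive map. -/
noncomputable def lam (j : ℕ) : E →+ Cob (NM p q h j) s where
  toFun := H.lamFun j
  map_zero' := H.lamFun_unique j 0 (k := 0) (c := 0)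
    (by simp only [smul_zero, zero_smul, sub_zero]; exact zero_mem _) (by simp)
  map_add' e e' := by
    obtain ⟨k, c, hc⟩ := H.dense j e
    obtain ⟨k', c', hc'⟩ := H.dense j e'
    refine H.lamFun_unique j _ (k := k + k') (c := vC p h s ^ k' * c + vC p h s ^ k * c') ?_ ?_
    · have : vC p h s ^ (k + k') • (e + e') - (vC p h s ^ k' * c + vC p h s ^ k * c') • u =
          vC p h s ^ k' • (vC p h s ^ k • e - c • u) +
            vC p h s ^ k • (vC p h s ^ k' • e' - c' • u) := by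
        rw [pow_add]
        simp only [smul_add, add_smul, mul_smul, smul_sub]
        rw [smul_comm (vC p h s ^ k') (vC p h s ^ k) e]
        abel
      rw [this]
      exact add_mem (Submodule.smul_mem _ _ hc) (Submodule.smul_mem _ _ hc')
    · rw [map_add, map_mul, map_mul, map_pow, map_pow, ← H.lamFun_spec j e hc,
        ← H.lamFun_spec j e' hc']
      ring

theorem lam_spec (j : ℕ) (e : E) {k : ℕ} {c : Cob Laz s}
    (hc : vC p h s ^ k • e - c • u ∈ Fil p h s j E) :
    toNM p q h j s (vC p h s) ^ k * H.lam j e = toNM p q h j s c := H.lamFun_spec j e hc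

theorem lam_unique (j : ℕ) (e : E) {k : ℕ} {c : Cob Laz s} {y : Cob (NM p q h j) s}
    (hc : vC p h s ^ k • e - c • u ∈ Fil p h s j E)
    (hy : toNM p q h j s (vC p h s) ^ k * y = toNM p q h j s c) : H.lam j e = y :=
  H.lamFun_unique j e hc hy

theorem lam_smul (j : ℕ) (c : Cob Laz s) (e : E) :
    H.lam j (c • e) = toNM p q h j s c * H.lam j e := by
  obtain ⟨k, d, hd⟩ := H.dense j e
  refine H.lam_unique j _ (k := k) (c := c * d) ?_ ?_
  · have : vC p h s ^ k • c • e - (c * d) • u = c • (vC p h s ^ k • e - d • u) := by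
      rw [smul_sub, mul_smul, smul_comm c (vC p h s ^ k) e]
    rw [this]
    exact Submodule.smul_mem _ _ hd
  · rw [map_mul, ← H.lam_spec j e hd]
    ring

theorem lam_u (j : ℕ) : H.lam j u = 1 := by
  refine H.lam_unique j _ (k := 0) (c := 1) ?_ ?_
  · rw [pow_zero, sub_self]; exact zero_mem _
  · rw [pow_zero, map_one, mul_one]

theorem lam_smul_u (j : ℕ) (c : Cob Laz s) : H.lam j (c • u) = toNM p q h j s c := by
  rw [H.lam_smul, H.lam_u, mul_one]

theorem lam_eq_zero_iff (j : ℕ) (e : E) : H.lam j e = 0 ↔ e ∈ Fil p h s j E := by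
  obtain ⟨k, c, hc⟩ := H.dense j e
  have h1 := H.lam_spec j e hc
  constructor
  · intro h0
    rw [h0, mul_zero] at h1
    have h2 := (H.toNM_eq_zero_iff' j c).1 h1.symm
    have h3 : vC p h s ^ k • e ∈ Fil p h s j E := by
      have := add_mem hc h2
      rwa [sub_add_cancel] at this
    exact H.fil_cancel j k h3
  · intro he
    refine H.lam_unique j e (k := 0) (c := 0) ?_ (by simp)
    rw [pow_zero, one_smul, zero_smul, sub_zero]
    exact he

theorem lam_surjective (j : ℕ) : Function.Surjective (H.lam j) := by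
  intro y
  obtain ⟨k, c, hc⟩ := exists_toNM p q h j s y
  obtain ⟨e, he⟩ := H.pow_surj k (c • u)
  refine ⟨e, H.lam_unique j e (k := k) (c := c) ?_ hc⟩
  rw [he, sub_self]
  exact zero_mem _

theorem red_lam {a b : ℕ} (hab : a ≤ b) (e : E) :
    Cob.mapRing (NM.red p q h hab) s (H.lam b e) = H.lam a e := by
  obtain ⟨k, c, hc⟩ := H.dense b e
  refine (H.lam_unique a e (CobCompl.fil_anti hab hc) ?_).symm
  have h1 := congrArg (Cob.mapRing (NM.red p q h hab) s) (H.lam_spec b e hc)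
  rwa [map_mul, map_pow, red_toNM, red_toNM] at h1

/-- Elements of `E` are determined by their images. -/
theorem ext_lam {e e' : E} (hh : ∀ j, H.lam (j + 1) e = H.lam (j + 1) e') : e = e' := by
  rw [← sub_eq_zero]
  refine H.haus _ fun k => ?_
  have h1 : e - e' ∈ Fil p h s (k + 1) E := (H.lam_eq_zero_iff _ _).1 (by
    rw [map_sub, hh, sub_self])
  exact CobCompl.fil_anti (Nat.le_succ k) h1

/-- Compatible families come from `E`. -/
theorem exists_of_compatible (x : ∀ j, Cob (NM p q h (j + 1)) s)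
    (hx : ∀ j, Cob.mapRing (NM.red p q h (Nat.le_succ (j + 1))) s (x (j + 1)) = x j) :
    ∃ e : E, ∀ j, H.lam (j + 1) e = x j := by
  choose e he using fun j => H.lam_surjective (j + 1) (x j)
  obtain ⟨l, hl⟩ := H.complete e (fun k => by
    have h1 : H.lam (k + 1) (e (k + 1) - e k) = 0 := by
      rw [map_sub, he, ← H.red_lam (Nat.le_succ (k + 1)), he, hx, sub_self]
    exact CobCompl.fil_anti (Nat.le_succ k) ((H.lam_eq_zero_iff _ _).1 h1))
  refine ⟨l, fun j => ?_⟩
  have h1 := (H.lam_eq_zero_iff (j + 1) _).2 (hl (j + 1))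
  rw [map_sub, sub_eq_zero] at h1
  rw [h1, ← hx j, ← he (j + 1), H.red_lam]

end CobComplM

end Compl

section Invariance

variable (p q h : ℕ) [Fact p.Prime] {m n : ℕ} (α : Fin (m + 1) → Fin (n + 1))

theorem toNM_map (j : ℕ) (c : Cob Laz m) :
    toNM p q h j n (Cob.map α c) = Cob.map α (toNM p q h j m c) :=
  Cob.mapRing_map LawRing.isLawHom_ofLaz α c

end Invariance

/-! ### naturality -/

namespace CobComplM

section Nat

variable {p q h : ℕ} [Fact p.Prime] {m n : ℕ} {E E' : Type*} [AddCommGroup E] [Module (Cob Laz m) E]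
  [AddCommGroup E'] [Module (Cob Laz n) E'] {u : E} {u' : E'}
  (H : CobComplM p q h m u) (H' : CobComplM p q h n u')

/-- Semilinear maps induce the cosimplicial maps. -/
theorem lam_map {α : Fin (m + 1) → Fin (n + 1)} {f : E →+ E'}
    (hf : ∀ (c : Cob Laz m) (e : E), f (c • e) = Cob.map α c • f e) (hu : f u = u') (j : ℕ)
    (e : E) : H'.lam j (f e) = Cob.map α (H.lam j e) := by
  obtain ⟨k, c, hc⟩ := H.dense j e
  have h1 := CobCompl.map_fil hf hc
  rw [map_sub, hf, hf, hu, map_pow] at h1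
  have h2 := (H'.lam_eq_zero_iff j _).2 h1
  rw [map_sub, sub_eq_zero, H'.lam_smul_u, H'.lam_smul, map_pow, toNM_map, toNM_map,
    ← H.lam_spec j e hc, map_mul, map_pow] at h2
  exact (((isUnit_toNM_vC p q h j m).map (Cob.map α)).pow k).mul_right_injective h2

end Nat

/-! ### weights -/

section Wt

variable (p q h s : ℕ) [Fact p.Prime]

variable {p q h s} {E : Type*} [AddCommGroup E] [Module (Cob Laz s) E] {u : E}
  (H : CobComplM p q h s u) (D : CobCompl.WtProj s u)

/-- `E → Cob (NM p q h j) s` respects the projections to the homogeneous parts. -/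
theorem lam_ε (j : ℕ) (w : ℤ) (e : E) : H.lam j (D.ε w e) = Cob.proj w (H.lam j e) := by
  obtain ⟨k, c, hc⟩ := H.dense j e
  have hv : Cob.IsWt (k * ((p ^ h : ℤ) - 1)) (vC p h s ^ k) := (CobCompl.isWt_C_v h).pow k
  have h1 := D.ε_fil j (k * ((p ^ h : ℤ) - 1) + w) hc
  rw [map_sub, D.ε_smul _ _ _ _ hv, D.ε_smul_u] at h1
  have h2 := H.lam_spec j _ h1
  have hv' : Cob.IsWt (k * ((p ^ h : ℤ) - 1)) (toNM p q h j s (vC p h s) ^ k) := by
    rw [← map_pow]
    exact hv.mapRing LawRing.isLawHom_ofLaz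
  refine (((isUnit_toNM_vC p q h j s)).pow k).mul_right_injective ?_
  change toNM p q h j s (vC p h s) ^ k * _ = toNM p q h j s (vC p h s) ^ k * _
  rw [h2, ← CobWt.proj_mul hv', H.lam_spec j e hc]
  exact (Cob.proj_mapRing LawRing.isLawHom_ofLaz _ c).symm

theorem isWt_lam (j : ℕ) {w : ℤ} {e : E} (he : D.ε w e = e) : Cob.IsWt w (H.lam j e) := by
  rw [← he, H.lam_ε D]
  exact Cob.isWt_proj _ _

theorem ε_of_isWt_lam {w : ℤ} {e : E} (he : ∀ j, Cob.IsWt w (H.lam (j + 1) e)) :
    D.ε w e = e := by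
  refine H.ext_lam fun j => ?_
  rw [H.lam_ε D, Cob.proj_of_isWt (he j), if_pos rfl]

/-- The part of weight `w` of `E` is the limit of the `(Cob (NM p q h j) s)_w`. -/
theorem exists_lim (w : ℤ) {G : Type*} [AddCommGroup G] (i : G →+ E)
    (hi : Function.Injective i) (hr : ∀ e, D.ε w e = e ↔ ∃ g, i g = e) :
    ∃ φ : G ≃+ (towerM p q h w).lim s, ∀ (g : G) (j : ℕ), ((φ g).1 j).1 = H.lam (j + 1) (i g) := by
  have h1 : ∀ g j, Cob.IsWt w (H.lam (j + 1) (i g)) := fun g j =>
    H.isWt_lam D _ ((hr _).2 ⟨g, rfl⟩)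
  let φ : G →+ (towerM p q h w).lim s :=
    { toFun := fun g => ⟨fun j => (⟨H.lam (j + 1) (i g), h1 g j⟩ : Cob.wt (NM p q h (j + 1)) s w),
        fun j => Subtype.ext (H.red_lam (Nat.le_succ (j + 1)) (i g))⟩
      map_zero' := by
        apply Subtype.ext
        funext j
        apply Subtype.ext
        change H.lam (j + 1) (i 0) = 0
        rw [map_zero, map_zero]
      map_add' := fun g g' => by
        apply Subtype.ext
        funext j
        apply Subtype.ext
        change H.lam (j + 1) (i (g + g')) = H.lam (j + 1) (i g) + H.lam (j + 1) (i g')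
        rw [map_add, map_add] }
  have hφ : ∀ (g : G) (j : ℕ), ((φ g).1 j).1 = H.lam (j + 1) (i g) := fun _ _ => rfl
  refine ⟨AddEquiv.ofBijective φ ⟨?_, ?_⟩, hφ⟩
  · intro g g' hgg
    apply hi
    refine H.ext_lam fun j => ?_
    rw [← hφ, ← hφ, hgg]
  · rintro ⟨x, hx⟩
    obtain ⟨e, he⟩ := H.exists_of_compatible (fun j => (x j).1) fun j =>
      congrArg Subtype.val (hx j)
    obtain ⟨g, rfl⟩ := (hr e).1 (H.ε_of_isWt_lam D fun j => by rw [he]; exact (x j).2)
    refine ⟨g, Subtype.ext (funext fun j => Subtype.ext ?_)⟩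
    rw [hφ, he]

end Wt

end CobComplM

end Vale.Agent.P261
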