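import Vale.Agent.P261.H616.K6A
import Vale.Agent.P251.S.GrE

/-!
# P261, leaf K6, part 2: the cobar complex of `L (S/q)` is the limit of `towerM`

Copy of the ends of `P251/S/GrB.lean`, `GrC.lean`, `GrE.lean`, `C` the cofibre of `q : ℕ` on the
unit.  The inputs (surjectivity and kernel of the reduction, theorem E1) are hypotheses here.
-/

open CategoryTheory MonoidalCategory MonObj Limits Pretriangulated

set_option linter.unusedSectionVars false

universe v u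

namespace Vale.Agent.P261

open Vale.Agent.P251 Vale.Agent.P251.T Vale.Agent.P251.M Vale.Agent.P251.M.EvenSpheres
  Vale.Agent.P251.S Vale.Agent.P251.F Vale.Agent.P251.S.GD

variable {T : Type u} [Category.{v} T] [Preadditive T] [HasZeroObject T]
    [HasShift T ℤ] [∀ n : ℤ, (shiftFunctor T n).Additive] [Pretriangulated T] [IsTriangulated T]
    [MonoidalCategory T] [SymmetricCategory T] [TensorTriangulated T] [MonoidalClosed T]
    [HasCoproducts.{0} T] [HasProducts.{0} T] [StableCat T]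

/-- Surjectivity of the reduction in even degrees. -/
def SurjM (D : I.MUData T) {C : T} (i : 𝟙_ T ⟶ C) (s : ℕ) : Prop :=
  ∀ (w : ℤ) (f : (stdEven T).S w ⟶ Am D.R (s + 1) ⊗ C),
    ∃ (z : Cob Laz s) (a : (stdEven T).S w ⟶ Am D.R (s + 1)), Cob.IsWt w z ∧
      D.ev s z = HRing.of (stdEven T) (Am D.R (s + 1)) w a ∧
      f = a ≫ (ρ_ (Am D.R (s + 1))).inv ≫ (Am D.R (s + 1) ◁ i)

/-- The kernel of the reduction. -/
def KerM (D : I.MUData T) (q : ℕ) {C : T} (i : 𝟙_ T ⟶ C) (s : ℕ) : Prop :=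
  ∀ (w : ℤ) (z : Cob Laz s), Cob.IsWt w z → ∀ a : (stdEven T).S w ⟶ Am D.R (s + 1),
    D.ev s z = HRing.of (stdEven T) (Am D.R (s + 1)) w a →
    a ≫ (ρ_ (Am D.R (s + 1))).inv ≫ (Am D.R (s + 1) ◁ i) = 0 →
    ∃ y : Cob Laz s, Cob.IsWt w y ∧ z = ((q : ℕ) : ℤ) • y

section B

variable (D : I.MUData T) {C : T} (i : 𝟙_ T ⟶ C)

/-- `π_0 N_s` is generated by the unit over `Cob Laz s`. -/
theorem exists_smul_uNM {s : ℕ} (hs : SurjM D i s)
    (f : 𝟙_ T ⟶ (Am D.R (s + 1) ⊗ C) ⊗ (stdEven T).PS) :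
    ∃ z : Cob Laz s, uN D i s ≫ rN D C s z = f := by
  obtain ⟨x, rfl⟩ := sharpTot_surjective (E := stdEven T) (Am D.R (s + 1) ⊗ C) f
  induction x using DirectSum.induction_on with
  | zero =>
    refine ⟨0, ?_⟩
    rw [map_zero, map_zero]
    exact comp_zero
  | of w a =>
    obtain ⟨z, b, -, hz, rfl⟩ := hs w a
    refine ⟨z, ?_⟩
    rw [sharpTot_of, uN_rN D i s hz]
  | add x y hx hy =>
    obtain ⟨z, hz⟩ := hx
    obtain ⟨z', hz'⟩ := hy
    refine ⟨z + z', ?_⟩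
    rw [map_add, map_add, ← hz, ← hz']
    exact Preadditive.comp_add _ _ _ _ _ _

/-- The annihilator of the unit is generated by `q`. -/
theorem mem_span_of_smul_uNM {q s : ℕ} (hk : KerM D q i s) (z : Cob Laz s)
    (hz : uN D i s ≫ rN D C s z = 0) : z ∈ Ideal.span {(q : Cob Laz s)} := by
  choose a ha ha' using fun w => γ_wt D (Cob.isWt_proj w z)
  have h1 : ∀ w ∈ Cob.wts z, ∃ y : Cob Laz s, Cob.proj w z = (q : ℤ) • y := by
    intro w hw
    have h2 : uN D i s ≫ rN D C s z = ∑ v ∈ Cob.wts z,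
        sharp (a v ≫ (ρ_ (Am D.R (s + 1))).inv ≫ (Am D.R (s + 1) ◁ i)) := by
      conv_lhs => rw [← Cob.sum_proj z, map_sum]
      refine (Preadditive.comp_sum _ _ _).trans (Finset.sum_congr rfl fun v _ => ?_)
      exact uN_rN D i s (ha v)
    rw [h2] at hz
    have h3 := congrArg (fun f => f ≫ ((Am D.R (s + 1) ⊗ C) ◁ wq (stdEven T) w)) hz
    simp only [Preadditive.sum_comp, zero_comp] at h3
    rw [Finset.sum_eq_single w (fun v _ hvw => sharp_wq_ne _ _ hvw _)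
      (fun hw' => absurd hw hw'), sharp_wq _ _ rfl] at h3
    obtain ⟨y, -, hy⟩ := hk w _ (Cob.isWt_proj w z) (a w) (ha w)
      (sharp_injective w h3)
    exact ⟨y, hy⟩
  rw [← Cob.sum_proj z]
  refine sum_mem fun w hw => ?_
  obtain ⟨y, hy⟩ := h1 w hw
  rw [hy, zsmul_eq_mul, Int.cast_natCast]
  exact Ideal.mul_mem_right _ _ (Ideal.mem_span_singleton_self _)

end B

section C

variable (D : I.MUData T) {C : T} {K : T} (F : LocFunctor K) (i : 𝟙_ T ⟶ C)

theorem q_smul_uN {q : ℕ} {δ : C ⟶ (𝟙_ T)⟦(1 : ℤ)⟧}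
    (hC : Triangle.mk ((q : ℤ) • 𝟙 (𝟙_ T)) i δ ∈ distTriang T) (s : ℕ) :
    (q : Cob Laz s) • (HM.of (uN D i s) : Fs D C s) = 0 := by
  have h0 : (q : ℤ) • i = 0 := by
    have := comp_distTriang_mor_zero₁₂ _ hC
    change ((q : ℤ) • 𝟙 (𝟙_ T)) ≫ i = 0 at this
    rwa [Preadditive.zsmul_comp, Category.id_comp] at this
  have h1 : (q : ℤ) • uN D i s = 0 := by
    have h2 := map_zsmul ((stdEven T).sharpAdd (Am D.R (s + 1) ⊗ C) 0) (q : ℤ)
      ((stdEven T).zero.inv ≫ uX D i s)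
    have h3 : (q : ℤ) • ((stdEven T).zero.inv ≫ uX D i s) = 0 := by
      rw [← Preadditive.comp_zsmul, uX, ← Preadditive.zsmul_comp, h0, zero_comp, comp_zero]
    rw [h3, map_zero] at h2
    exact h2.symm
  rw [Nat.cast_smul_eq_nsmul]
  rw [← natCast_zsmul]
  exact h1

/-- **`Hom(𝟙, L N_s)` is the completion of `v_h⁻¹ (Cob Laz s / q)`.** -/
theorem cobComplM {p : ℕ} [Fact p.Prime] {h q : ℕ} {δ : C ⟶ (𝟙_ T)⟦(1 : ℤ)⟧}
    (hC : Triangle.mk ((q : ℤ) • 𝟙 (𝟙_ T)) i δ ∈ distTriang T) {s : ℕ}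
    (hs : SurjM D i s) (hk : KerM D q i s) (hE : E1C F (D.vs p) h (MP D C s)) :
    CobComplM p q h s (uL D F i s) := by
  have hgen : ∀ f : Fs D C s, ∃ c : Cob Laz s, c • (HM.of (uN D i s) : Fs D C s) = f := by
    intro f
    obtain ⟨z, hz⟩ := exists_smul_uNM D i hs f.hom
    exact ⟨z, HM.hom_ext hz⟩
  refine CobComplM.of_compCond p q h s (compCond D F s hE) (HM.of (uN D i s)) hgen ?_ ?_
  · intro c hc
    exact mem_span_of_smul_uNM D i hk c (congrArg HM.hom hc)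
  · exact (compCond D F s hE).smul_eq_zero hgen (q_smul_uN D i hC s)

end C

section main

variable (D : I.MUData T) (U : UnitCof D.R) {C : T} {K : T} (F : LocFunctor K)
  {p : ℕ} [Fact p.Prime] {h q : ℕ} (i : 𝟙_ T ⟶ C) {δ : C ⟶ (𝟙_ T)⟦(1 : ℤ)⟧}
  (hC : Triangle.mk ((q : ℤ) • 𝟙 (𝟙_ T)) i δ ∈ distTriang T)
  (hs : ∀ s, SurjM D i s) (hk : ∀ s, KerM D q i s)
  (hE : ∀ s, E1C F (D.vs p) h (MP D C s))

include hC hs hk hE

theorem exists_phiM (s : ℕ) (w : ℤ) :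
    ∃ φ : ((𝟙_ T)⟦2 * w⟧ ⟶ F.L.obj (U.cobar.Q (s + 1) (𝟙_ T) ⊗ C)) ≃+
        (towerM p q h w).lim s,
      ∀ x j, ((φ x).1 j).1 =
        (cobComplM D F i hC (hs s) (hk s) (hE s)).lam (j + 1) (iG D U C F s w x) :=
  (cobComplM D F i hC (hs s) (hk s) (hE s)).exists_lim (wtProj D F s i) w (iG D U C F s w)
    (iG_injective D U C F s w) (iG_range D U C F s w)

/-- **The cobar complex of `L_K (S/q)` is the limit of the tower `towerM p q h w`.** -/
noncomputable def cobModelM (w : ℤ) :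
    U.CobModel (𝟙_ T) (tensorRight C ⋙ F.L) (𝟙_ T) w (towerM p q h w) where
  φ s := (exists_phiM D U F i hC hs hk hE s w).choose
  φ_d s x j := by
    apply Subtype.ext
    have h1 := (exists_phiM D U F i hC hs hk hE (s + 1) w).choose_spec
      (x ≫ F.L.map (U.cobar.d (s + 1) (𝟙_ T) ▷ C)) j
    refine h1.trans ?_
    have h2 := (exists_phiM D U F i hC hs hk hE s w).choose_spec x j
    change _ = Cob.d s (((exists_phiM D U F i hC hs hk hE s w).choose x).1 j).1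
    rw [h2, iG_d, map_sum, Cob.d_apply]
    refine Finset.sum_congr rfl fun k _ => ?_
    rw [map_zsmul]
    congr 1
    exact CobComplM.lam_map _ _ (mapE_smul D C F _) (mapE_uL D F _ i) _ _

theorem cobModelM_apply (w : ℤ) (s : ℕ)
    (x : (𝟙_ T)⟦2 * w⟧ ⟶ (tensorRight C ⋙ F.L).obj (U.cobar.Q (s + 1) (𝟙_ T))) (j : ℕ) :
    (((cobModelM D U F i hC hs hk hE w).φ s x).1 j).1 =
      (cobComplM D F i hC (hs s) (hk s) (hE s)).lam (j + 1) (iG D U C F s w x) :=
  (exists_phiM D U F i hC hs hk hE s w).choose_spec x j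

/-- The classes coming from `Cob Laz s`. -/
theorem cobModelM_phi (w : ℤ) (s : ℕ) (z : Cob.wt Laz s w) (j : ℕ) :
    (((cobModelM D U F i hC hs hk hE w).φ s (((B.sphE T w).inv ≫ D.phi U s w z) ≫
      (redC i).app (U.cobar.Q (s + 1) (𝟙_ T)) ≫
        F.unit.app (U.cobar.Q (s + 1) (𝟙_ T) ⊗ C))).1 j).1 = toNM p q h (j + 1) s z.1 := by
  rw [cobModelM_apply, Category.assoc]
  rw [← (cobComplM D F i hC (hs s) (hk s) (hE s)).lam_smul_u (j + 1) z.1,
    ← iG_u D U C F i s w z]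
  rfl

end main

end Vale.Agent.P261
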